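import Vale.Agent.Results.P254.AUnion
import Vale.Agent.Lib.P254.NearGeneral

/-!
# P254 (strong isotropic constant conjecture): nested sets, and the statements of `AUnion`

New here: for bounded measurable sets `K ⊆ T` of positive volume in `ℝ^n`, `n ≥ 1`,
`isoPow K ≤ (vol T / vol K)^(n+2) * isoPow T`; hence the inequality `isoPow K ≤ simplexPow n`
for every measurable `K` inside a member `T` of the family `Good` with
the product of `isoPow T` and the power `n + 2` of `vol T / vol K` at most `simplexPow n`.  The remaining conjuncts are those of the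
hand-in `AUnion`: the value of `isoPow` on simplices, the inequality with its equality case on
the family `Good`, subsets of cubes, and the affine invariance of `isoPow`.
-/

namespace Vale.Agent.Results.P254.AANested

open Vale.Agent.Lib.P254

theorem result :
    (∀ (ι : Type) [Fintype ι] [DecidableEq ι] [Nonempty ι] (K T : Set (ι → ℝ)),
      MeasurableSet K → MeasurableSet T → Bornology.IsBounded T → K ⊆ T → 0 < vol K →
      isoPow K ≤ (vol T / vol K) ^ (Fintype.card ι + 2) * isoPow T) ∧
    (∀ (ι : Type) [Fintype ι] [DecidableEq ι] [Nonempty ι] (K T : Set (ι → ℝ)),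
      Good T → MeasurableSet K → K ⊆ T → 0 < vol K →
      (vol T / vol K) ^ (Fintype.card ι + 2) * isoPow T ≤ simplexPow (Fintype.card ι) →
      isoPow K ≤ simplexPow (Fintype.card ι)) ∧
    (∀ (ι : Type) [Fintype ι] [DecidableEq ι] (p : Fin (Fintype.card ι + 1) → ι → ℝ),
      AffineIndependent ℝ p →
      isoPow (convexHull ℝ (Set.range p)) = simplexPow (Fintype.card ι)) ∧
    (∀ (ι : Type) [Fintype ι] [DecidableEq ι] (K : Set (ι → ℝ)), Good K →
      (IsCompact K ∧ Convex ℝ K ∧ (interior K).Nonempty) ∧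
      isoPow K ≤ simplexPow (Fintype.card ι) ∧
      (isoPow K = simplexPow (Fintype.card ι) ↔
        ∃ p : Fin (Fintype.card ι + 1) → ι → ℝ, AffineIndependent ℝ p ∧
          K = convexHull ℝ (Set.range p))) ∧
    (∀ (ι : Type) [Fintype ι] [DecidableEq ι] [Nonempty ι] (a : ι → ℝ) (s : ℝ)
      (K : Set (ι → ℝ)),
      0 < s → MeasurableSet K → K ⊆ Set.Icc a (fun j => a j + s) → 0 < vol K →
      isoPow K ≤ (s ^ Fintype.card ι / vol K) ^ (Fintype.card ι + 2) / 12 ^ Fintype.card ι ∧
      ((s ^ Fintype.card ι / vol K) ^ (Fintype.card ι + 2)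
          ≤ 12 ^ Fintype.card ι * simplexPow (Fintype.card ι) →
        isoPow K ≤ simplexPow (Fintype.card ι))) ∧
    (∀ n : ℕ, 1 ≤ 12 ^ n * simplexPow n ∧ (2 ≤ n → 1 < 12 ^ n * simplexPow n)) ∧
    (∀ (ι : Type) [Fintype ι] [DecidableEq ι] (F : Matrix ι ι ℝ) (c : ι → ℝ)
      (S : Set (ι → ℝ)), F.det ≠ 0 → MeasurableSet S → Bornology.IsBounded S → vol S ≠ 0 →
      isoPow ((fun x : ι → ℝ => c + F.mulVec x) '' S) = isoPow S) := by
  obtain ⟨u1, u2, u3, u4, u5⟩ := Vale.Agent.Results.P254.AUnion.result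
  refine ⟨fun ι _ _ _ K T hKm hTm hTb hKT hV => isoPow_le_of_subset hKm hTm hTb hKT hV,
    fun ι _ _ _ K T hT hKm hKT hV hle => ?_, u1, u2, u3, u4, u5⟩
  obtain ⟨⟨hc, -, -⟩, -, -⟩ := u2 ι T hT
  exact (isoPow_le_of_subset hKm hc.measurableSet hc.isBounded hKT hV).trans hle

end Vale.Agent.Results.P254.AANested
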